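import Vale.Agent.P095.Infinite.Fixed
import Vale.Agent.P095.Lossy.Final

/-!
# P095: `Z`-stable unital algebras, with or without tracial states

Lossy comparison settles the algebras with a tracial state, pure infiniteness the others.
-/

namespace Vale.P095.Infinite

open Vale.P095.SI Vale.P095.Tracial

noncomputable section

/-- Cocycle conjugacy to the stabilised action. -/
theorem equiStable (hM : Lossy.MatStmt) (hU : Lossy.UpperStmt) (hL : Lossy.LowerStmt)
    (hRep : Equi.RepStmt) (A : Type) [CStarAlgebra A] [Nontrivial A] [IsSimpleRing A]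
    [TopologicalSpace.SeparableSpace A] (hA : HasCPAP A)
    (G : Type) [Group G] [Countable G] (hG : IsFolner G) (α : G →* (A ≃⋆ₐ[ℂ] A))
    (ω : Ultrafilter ℕ) (hω : (ω : Filter ℕ) ≤ Filter.cofinite)
    (hchar : P101.NoCharacters (P101.FOmega A ω))
    (B : Type) [CStarAlgebra B] (hB : P101.ZS.IsJiangSu B) (T : P101.ZS.Tower B) :
    Equi.IsEquiStable A B α := by
  by_cases hτ : Nonempty (TracialState A)
  · exact Lossy.equiStable hM hU hL hRep A hA hτ G hG α ω hω hchar B hB T
  · exact Equi.equiAbsorb hRep P101.ZS.univ A ω hω G α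
      (fixed_dimDrop_of_noTrace hM hU hL A hA (not_nonempty_iff.1 hτ) G hG α ω hω hchar) B hB T

end

end Vale.P095.Infinite
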