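import Vale.Agent.P095.Lossy.Main
import Vale.Agent.P095.Lossy.Unperf
import Vale.Agent.P095.Lossy.Pull

/-!
# P095: without tracial states the algebra is purely infinite

The steps of lossy comparison do not use a tracial state: with none, half of the unit is Cuntz below
every nonzero positive element, with a bounded comparison element.
-/

open scoped Kronecker Matrix.Norms.L2Operator

namespace Vale.P095.Infinite

open Vale.P095.SI Vale.P095.Tracial Vale.P095.Lossy

noncomputable section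

attribute [local instance] CStarAlgebra.spectralOrder CStarAlgebra.spectralOrderedRing

variable {A : Type} [CStarAlgebra A]

/-- Every positive element of norm at least `r` compresses to the unit by an element of controlled
norm. -/
def IsPurelyInfinite (A : Type) [CStarAlgebra A] : Prop :=
  ∀ a : A, IsPos a → ∀ r : ℝ, 0 < r → r ≤ ‖a‖ → ∃ t : A, star t * a * t = 1 ∧ ‖t‖ ^ 2 ≤ 2 / r

/-- An element almost one is invertible by a bounded positive element. -/
theorem exists_normalise [Nontrivial A] {T : A} (hT : 0 ≤ T) {m : ℝ} (hm : 0 < m)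
    (h : algebraMap ℝ A m ≤ T) : ∃ g : A, star g * T * g = 1 ∧ ‖g‖ ^ 2 ≤ 1 / m := by
  have hspec : ∀ x ∈ spectrum ℝ T, m ≤ x :=
    (algebraMap_le_iff_le_spectrum hT.isSelfAdjoint).1 h
  have hc : ContinuousOn (fun x : ℝ => (√x)⁻¹) (spectrum ℝ T) :=
    Real.continuous_sqrt.continuousOn.inv₀ fun x hx =>
      (Real.sqrt_pos.2 (hm.trans_le (hspec x hx))).ne'
  set g : A := cfc (fun x : ℝ => (√x)⁻¹) T with hg
  have hgs : star g = g := (cfc_predicate _ T : IsSelfAdjoint _).star_eq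
  refine ⟨g, ?_, ?_⟩
  · rw [hgs]
    conv_lhs => arg 1; arg 2; rw [← cfc_id' ℝ T hT.isSelfAdjoint]
    rw [hg, ← cfc_mul _ (fun x : ℝ => x) T hc (by fun_prop),
      ← cfc_mul _ _ T (hc.fun_mul (by fun_prop)) hc,
      ← cfc_const_one ℝ T hT.isSelfAdjoint]
    refine cfc_congr fun x hx => ?_
    have hx0 : 0 < x := hm.trans_le (hspec x hx)
    rw [mul_right_comm, ← mul_inv, Real.mul_self_sqrt hx0.le, inv_mul_cancel₀ hx0.ne']
  · have hb : ‖g‖ ≤ (√m)⁻¹ := norm_cfc_le (by positivity) fun x hx => by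
      rw [Real.norm_of_nonneg (by positivity)]
      exact inv_anti₀ (Real.sqrt_pos.2 hm) (Real.sqrt_le_sqrt (hspec x hx))
    calc ‖g‖ ^ 2 ≤ ((√m)⁻¹) ^ 2 := pow_le_pow_left₀ (norm_nonneg _) hb 2
      _ = 1 / m := by rw [inv_pow, Real.sq_sqrt hm.le, one_div]

/-- Half of the unit is Cuntz below every nonzero positive element of norm at most one. -/
theorem half_cuntzLE (hM : MatStmt) (hU : UpperStmt) (hL : LowerStmt)
    [TopologicalSpace.SeparableSpace A] [Nontrivial A] [IsSimpleRing A] {ω : Ultrafilter ℕ}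
    (hω : (ω : Filter ℕ) ≤ Filter.cofinite) (hA : HasCPAP A) (hτ : IsEmpty (TracialState A))
    (hchar : P101.NoCharacters (P101.FOmega A ω)) {a : A} (ha : IsPos a) (ha1 : ‖a‖ ≤ 1)
    (ha0 : a ≠ 0) : CuntzLE (cfc (fun r : ℝ => max 0 (r - 1 / 2)) (1 : A)) a := by
  obtain ⟨q, hq, hlow⟩ := lower_copies hM pull hL hA (δ := 1) one_pos
  obtain ⟨θ, -, hup⟩ := upper_copies hM pull hU hA (k := 16 * q) (by omega)
    (ε := 1 / 2) (by norm_num)
  obtain ⟨D₁, d₁, hD₁, hd₁, h₁⟩ := hup 1 ⟨1, by simp⟩ CStarRing.norm_one.le fun τ => hτ.elim τ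
  obtain ⟨D₂, d₂, hD₂, hd₂, h₂⟩ := hlow a ha ha1 (exists_full_sum ha0) fun τ => hτ.elim τ
  have hfull : P101.Full (P101.commSet (P101.FOmega A ω)) := P101.full_commSet ⟨fun χ => by
    have := congrArg (fun f : P101.FOmega A ω →⋆ₙₐ[ℂ] ℂ => f 1) (hchar χ.toNonUnitalStarAlgHom)
    exact one_ne_zero ((map_one χ).symm.trans this)⟩
  refine unperf A ω hω (fun k hk => P101.ZS.treeStmt _ (P101.copyProp_central ω hω) hfull k hk) _ a
    (loc_isPos (cfc_nonneg fun r _ => le_max_left _ _)) ha (d₁ * d₂) (D₁ * (q * D₂))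
    (Nat.mul_pos (by nlinarith) (by omega)) ?_ (h₁.trans h₂)
  have h := Nat.mul_le_mul hd₁ hd₂
  nlinarith

/-- The unit is reached exactly from every nonzero positive element. -/
theorem exists_conj_one (hM : MatStmt) (hU : UpperStmt) (hL : LowerStmt)
    [TopologicalSpace.SeparableSpace A] [Nontrivial A] [IsSimpleRing A] {ω : Ultrafilter ℕ}
    (hω : (ω : Filter ℕ) ≤ Filter.cofinite) (hA : HasCPAP A) (hτ : IsEmpty (TracialState A))
    (hchar : P101.NoCharacters (P101.FOmega A ω)) {a : A} (ha : 0 ≤ a) (ha0 : a ≠ 0) :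
    ∃ u : A, star u * a * u = 1 := by
  have hn : 0 < ‖a‖ := norm_pos_iff.2 ha0
  have hb1 : ‖‖a‖⁻¹ • a‖ ≤ 1 := by
    rw [norm_smul, norm_inv, norm_norm, inv_mul_cancel₀ hn.ne']
  have hb0 : ‖a‖⁻¹ • a ≠ 0 := smul_ne_zero (inv_ne_zero hn.ne') ha0
  obtain ⟨w, hw⟩ := half_cuntzLE hM hU hL hω hA hτ hchar
    (loc_isPos (smul_nonneg (inv_nonneg.2 hn.le) ha)) hb1 hb0 (1 / 4) (by norm_num)
  have e1 : cfc (fun r : ℝ => max 0 (r - 1 / 2)) (1 : A) = algebraMap ℝ A (1 / 2) := by
    rw [← map_one (algebraMap ℝ A), cfc_algebraMap]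
    norm_num
  set T : A := star w * (‖a‖⁻¹ • a) * w with hT
  have hT0 : 0 ≤ T := star_left_conjugate_nonneg (smul_nonneg (inv_nonneg.2 hn.le) ha) w
  have hlow : algebraMap ℝ A (1 / 4) ≤ T := by
    rw [e1] at hw
    have h1 := (hT0.isSelfAdjoint.sub
      ((IsSelfAdjoint.all (1 / 2 : ℝ)).algebraMap A)).neg_algebraMap_norm_le_self
    have h2 := (neg_le_neg (algebraMap_mono A hw)).trans h1
    rw [neg_le_sub_iff_le_add] at h2
    calc algebraMap ℝ A (1 / 4) = algebraMap ℝ A (1 / 2) - algebraMap ℝ A (1 / 4) := by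
          rw [← map_sub]; norm_num
      _ ≤ T := sub_le_iff_le_add.2 h2
  obtain ⟨g, hg, -⟩ := exists_normalise hT0 (by norm_num) hlow
  refine ⟨(√‖a‖)⁻¹ • (w * g), ?_⟩
  rw [star_smul, star_trivial, smul_mul_assoc, smul_mul_assoc, mul_smul_comm, smul_smul,
    ← mul_inv, Real.mul_self_sqrt hn.le]
  conv_rhs => rw [← hg, hT]
  simp only [star_mul, smul_mul_assoc, mul_smul_comm, mul_assoc]

/-- Pure infiniteness, with bounds. -/
theorem isPurelyInfinite (hM : MatStmt) (hU : UpperStmt) (hL : LowerStmt)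
    [TopologicalSpace.SeparableSpace A] [Nontrivial A] [IsSimpleRing A] {ω : Ultrafilter ℕ}
    (hω : (ω : Filter ℕ) ≤ Filter.cofinite) (hA : HasCPAP A) (hτ : IsEmpty (TracialState A))
    (hchar : P101.NoCharacters (P101.FOmega A ω)) : IsPurelyInfinite A := by
  intro a ha' r hr hra
  have ha : 0 ≤ a := loc_nonneg ha'
  set k : ℝ → ℝ := fun x => max 0 (x - r / 2) with hk
  set p : A := cfc k a with hp
  have hp0 : 0 ≤ p := cfc_nonneg fun x _ => le_max_left _ _
  have hpne : p ≠ 0 := fun h => by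
    have h1 := norm_apply_le_norm_cfc k a (CStarAlgebra.norm_mem_spectrum_of_nonneg ha)
      (by fun_prop) ha.isSelfAdjoint
    rw [← hp, h, norm_zero, norm_le_zero_iff] at h1
    have h2 : ‖a‖ - r / 2 ≤ k ‖a‖ := le_max_right _ _
    linarith
  obtain ⟨u, hu⟩ := exists_conj_one hM hU hL hω hA hτ hchar hp0 hpne
  set s : A := cfc (fun x => √(k x)) a with hs
  have hsa : IsSelfAdjoint s := cfc_predicate _ a
  have hss : s * s = p := by
    rw [hs, hp, ← cfc_mul _ _ a (by fun_prop) (by fun_prop)]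
    exact cfc_congr fun x _ => Real.mul_self_sqrt (le_max_left _ _)
  have hle : (r / 2) • p ≤ s * a * s := by
    rw [hs, hp]
    conv_rhs => arg 1; arg 2; rw [← cfc_id' ℝ a ha.isSelfAdjoint]
    rw [← cfc_mul _ _ a (by fun_prop) (by fun_prop), ← cfc_mul _ _ a (by fun_prop) (by fun_prop),
      ← cfc_smul (r / 2) k a (by fun_prop)]
    refine cfc_mono (fun x _ => ?_) (by fun_prop) (by fun_prop)
    rw [smul_eq_mul, mul_right_comm, Real.mul_self_sqrt (le_max_left _ _), mul_comm (r / 2)]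
    rcases le_total x (r / 2) with h | h
    · simp [hk, max_eq_left (sub_nonpos.2 h)]
    · exact mul_le_mul_of_nonneg_left h (le_max_left _ _)
  set y : A := s * u with hy
  have hyy : star y * y = 1 := by
    rw [hy, star_mul, hsa.star_eq]
    simpa only [mul_assoc, ← hss] using hu
  have hy1 : ‖y‖ = 1 := by
    have h := CStarRing.norm_star_mul_self (x := y)
    rw [hyy, CStarRing.norm_one] at h
    nlinarith [norm_nonneg y]
  have hlow : algebraMap ℝ A (r / 2) ≤ star y * a * y := by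
    have h := star_left_conjugate_le_conjugate hle u
    rw [mul_smul_comm, smul_mul_assoc, hu, ← Algebra.algebraMap_eq_smul_one] at h
    refine h.trans_eq ?_
    simp only [hy, star_mul, hsa.star_eq, mul_assoc]
  obtain ⟨g, hg, hgn⟩ := exists_normalise (star_left_conjugate_nonneg ha y) (half_pos hr) hlow
  refine ⟨y * g, by rw [← hg, star_mul]; simp only [mul_assoc], ?_⟩
  calc ‖y * g‖ ^ 2 ≤ (‖y‖ * ‖g‖) ^ 2 := pow_le_pow_left₀ (norm_nonneg _) (norm_mul_le _ _) 2
    _ ≤ 1 / (r / 2) := by rw [hy1, one_mul]; exact hgn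
    _ = 2 / r := by field_simp

end

end Vale.P095.Infinite
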