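import Vale.Agent.P095.SI.Local
import Vale.Agent.P095.Infinite.Pi

/-!
# P095: property (SI) without traces

The argument of `SI.si_local` with pure infiniteness in place of the comparison of traces: almost
central pieces of norm at least one half compress, through the excising element, to the unit.
-/

open Filter Topology

namespace Vale.P095.Infinite

open Vale.P095.SI

noncomputable section

attribute [local instance] CStarAlgebra.spectralOrder CStarAlgebra.spectralOrderedRing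

variable {A : Type} [CStarAlgebra A]

/-- One piece. -/
theorem pi_piece (hpi : IsPurelyInfinite A) {c₀ q : A} (hq : IsSelfAdjoint q) (hq0 : 1 / 2 ≤ ‖q‖)
    (hc : IsSelfAdjoint c₀) {n : ℕ} (x y : Fin n → A) (hxy : ∑ i, x i * c₀ * y i = 1) {η : ℝ}
    (hη : η * (4 * (1 + ∑ i, (‖x i‖ + ‖y i‖)) ^ 2) ≤ 1) (hη0 : 0 ≤ η)
    (hc1 : ‖c₀‖ ≤ 1) (hcomm : ∀ i, ‖q * y i - y i * q‖ ≤ η) :
    ∃ t : A, star (c₀ * q * t) * (c₀ * q * t) = 1 ∧
      ‖t‖ ^ 2 ≤ 2 * (4 * (1 + ∑ i, (‖x i‖ + ‖y i‖)) ^ 2) ^ 2 := by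
  set N : ℝ := 1 + ∑ i, (‖x i‖ + ‖y i‖) with hN
  have hsum : ∀ i, ‖x i‖ ≤ N ∧ ‖y i‖ ≤ N := fun i => by
    have := Finset.single_le_sum (f := fun i => ‖x i‖ + ‖y i‖)
      (fun i _ => add_nonneg (norm_nonneg _) (norm_nonneg _)) (Finset.mem_univ i)
    exact ⟨by linarith [norm_nonneg (y i)], by linarith [norm_nonneg (x i)]⟩
  have hN1 : 1 ≤ N := le_add_of_nonneg_right
    (Finset.sum_nonneg fun i _ => add_nonneg (norm_nonneg _) (norm_nonneg _))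
  have hx : ∑ i, ‖x i‖ ≤ N := by
    rw [hN]
    have := Finset.sum_le_sum (f := fun i => ‖x i‖) (g := fun i => ‖x i‖ + ‖y i‖)
      (s := Finset.univ) fun i _ => le_add_of_nonneg_right (norm_nonneg _)
    linarith
  have hlow : 1 / (4 * N ^ 2) ≤ ‖c₀ * q‖ := by
    have e : q = (∑ i, x i * (c₀ * q) * y i) + ∑ i, x i * c₀ * (y i * q - q * y i) := by
      rw [← Finset.sum_add_distrib]
      conv_lhs => rw [← one_mul q, ← hxy, Finset.sum_mul]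
      exact Finset.sum_congr rfl fun i _ => by noncomm_ring
    have h1 : ‖∑ i, x i * (c₀ * q) * y i‖ ≤ N * ‖c₀ * q‖ * N := by
      refine (norm_sum_le _ _).trans ?_
      calc ∑ i, ‖x i * (c₀ * q) * y i‖ ≤ ∑ i, ‖x i‖ * (‖c₀ * q‖ * N) :=
            Finset.sum_le_sum fun i _ => by
              exact (loc_norm_mul_le (loc_norm_mul_le le_rfl le_rfl) (hsum i).2).trans_eq
                (mul_assoc _ _ _)
        _ ≤ N * ‖c₀ * q‖ * N := by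
            rw [← Finset.sum_mul, mul_assoc]
            exact mul_le_mul_of_nonneg_right hx (by positivity)
    have h2 : ‖∑ i, x i * c₀ * (y i * q - q * y i)‖ ≤ N * 1 * η := by
      refine (norm_sum_le _ _).trans ?_
      calc ∑ i, ‖x i * c₀ * (y i * q - q * y i)‖ ≤ ∑ i, ‖x i‖ * (1 * η) :=
            Finset.sum_le_sum fun i _ => by
              exact (loc_norm_mul_le (loc_norm_mul_le le_rfl hc1)
                ((norm_sub_rev _ _).trans_le (hcomm i))).trans_eq (mul_assoc _ _ _)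
        _ ≤ N * 1 * η := by
            rw [← Finset.sum_mul, mul_assoc]
            exact mul_le_mul_of_nonneg_right hx (by positivity)
    have h3 : N * 1 * η ≤ 1 / 4 := by
      nlinarith
    have h4 : ‖q‖ ≤ N * ‖c₀ * q‖ * N + N * 1 * η := by
      conv_lhs => rw [e]
      exact (norm_add_le _ _).trans (add_le_add h1 h2)
    rw [div_le_iff₀ (by positivity)]
    nlinarith
  have ha : IsPos (star (c₀ * q) * (c₀ * q)) := ⟨_, rfl⟩
  obtain ⟨t, ht, htn⟩ := hpi _ ha ((1 / (4 * N ^ 2)) ^ 2) (by positivity) (by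
    rw [CStarRing.norm_star_mul_self, ← sq]
    exact pow_le_pow_left₀ (by positivity) hlow 2)
  refine ⟨t, ?_, htn.trans_eq (by field_simp)⟩
  rw [← ht, star_mul]
  simp only [mul_assoc]

/-- Property (SI) below a self-adjoint element, away from finitely many translations. -/
theorem si_local_pi [Nontrivial A] [IsSimpleRing A] [TopologicalSpace.SeparableSpace A]
    (hA : HasCPAP A) (hpi : IsPurelyInfinite A) {ι : Type*} [Countable ι] (θ : ι → A ≃⋆ₐ[ℂ] A)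
    (hθ : ∀ i, IsOrth (θ i)) (D : Finset A) (T : Finset ι) {ε : ℝ} (hε : 0 < ε) :
    ∃ L : ℕ, ∃ (D' : Finset A) (η : ℝ), 0 < η ∧
      ∀ (f : A) (q : Fin L → A),
        (∀ p, IsPos (q p) ∧ ‖q p‖ ≤ 1 ∧ 1 / 2 ≤ ‖q p‖) →
        (∀ a ∈ D', ‖f * a - a * f‖ ≤ η ∧ ∀ p, ‖q p * a - a * q p‖ ≤ η) →
        (∀ p p', p ≠ p' → ‖q p * q p'‖ ≤ η) → (∀ p, ‖f * q p - q p‖ ≤ η) →
        ∃ s : A, ‖star s * s - 1‖ ≤ ε ∧ (∀ a ∈ D, ‖s * a - a * s‖ ≤ ε) ∧ ‖f * s - s‖ ≤ ε ∧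
          ∀ i ∈ T, ‖star s * θ i s‖ ≤ ε := by
  classical
  obtain ⟨φ, hφ1, hφ, hexc⟩ := exists_excision θ hθ
  obtain ⟨K, hK⟩ : ∃ r : ℝ, r = 1 + ∑ a ∈ D, ‖a‖ := ⟨_, rfl⟩
  have hD0 : 0 ≤ ∑ a ∈ D, ‖a‖ := Finset.sum_nonneg fun a _ => norm_nonneg a
  have hK1 : 1 ≤ K := by linarith
  obtain ⟨ε₀, hε₀⟩ : ∃ r : ℝ, r = min (ε / 4) (ε ^ 2 / (6 * K ^ 2)) := ⟨_, rfl⟩
  have hε₀0 : 0 < ε₀ := hε₀ ▸ lt_min (by positivity) (by positivity)
  set D₁ : Finset A := D ∪ D.image (fun a => star a * a) ∪ {1} with hD₁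
  obtain ⟨L, N, c, d, hdec⟩ := exists_decomposition hA φ hφ1 hφ D₁ hε₀0
  refine ⟨L, ?_⟩
  set PP : Finset ((Fin L × Fin N) × (Fin L × Fin N)) := Finset.univ with hPP
  set X : Finset A := (D₁ ×ˢ PP).image
      (fun z => star (c z.2.1.1 z.2.1.2) * z.1 * c z.2.2.1 z.2.2.2) ∪
    (T ×ˢ PP).image (fun z => star (c z.2.1.1 z.2.1.2) * θ z.1 (c z.2.2.1 z.2.2.2)) with hX
  obtain ⟨S, hS⟩ : ∃ r : ℝ, r = 1 + ∑ P : Fin L × Fin N, ‖d P.1 P.2‖ := ⟨_, rfl⟩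
  have hd0 : 0 ≤ ∑ P : Fin L × Fin N, ‖d P.1 P.2‖ := Finset.sum_nonneg fun P _ => norm_nonneg _
  obtain ⟨Φ, hΦ⟩ : ∃ r : ℝ, r = 1 + ∑ x ∈ X, ‖φ x‖ := ⟨_, rfl⟩
  have hΦ0 : 0 ≤ ∑ x ∈ X, ‖φ x‖ := Finset.sum_nonneg fun x _ => norm_nonneg _
  obtain ⟨η₁, hη₁⟩ : ∃ r : ℝ, r = ε₀ / S ^ 2 := ⟨_, rfl⟩
  have hη₁0 : 0 < η₁ := hη₁ ▸ div_pos hε₀0 (pow_pos (by linarith) 2)
  obtain ⟨b, c₀, hbc, hexc', horth⟩ := hexc X T (η₁ / 4) (by positivity)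
  have hb := (loc_nonneg hbc.pos_b).isSelfAdjoint
  have hc₀ := (loc_nonneg hbc.pos_c).isSelfAdjoint
  obtain ⟨n, x, y, hxy⟩ := loc_exists_sum (norm_pos_iff.1 (hbc.norm_c ▸ one_pos) : c₀ ≠ 0)
  obtain ⟨Nxy, hNxy⟩ : ∃ r : ℝ, r = 1 + ∑ i, (‖x i‖ + ‖y i‖) := ⟨_, rfl⟩
  obtain ⟨R, hR⟩ : ∃ r : ℝ, r = 1 + 8 * Nxy ^ 2 := ⟨_, rfl⟩
  obtain ⟨Nc, hNc⟩ : ∃ r : ℝ, r = 1 + ∑ P : Fin L × Fin N, ‖c P.1 P.2 * c₀‖ := ⟨_, rfl⟩
  obtain ⟨Nx, hNx⟩ : ∃ r : ℝ, r = 1 + ∑ z ∈ X, ‖c₀ * z * c₀‖ := ⟨_, rfl⟩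
  obtain ⟨W, hW⟩ : ∃ r : ℝ, r = 1 + Φ * (∑ P : Fin L × Fin N, ‖d P.1 P.2‖) *
      Fintype.card (Fin L × Fin N) := ⟨_, rfl⟩
  have hsNc : 0 ≤ ∑ P : Fin L × Fin N, ‖c P.1 P.2 * c₀‖ :=
    Finset.sum_nonneg fun P _ => norm_nonneg _
  have hsNx : 0 ≤ ∑ z ∈ X, ‖c₀ * z * c₀‖ := Finset.sum_nonneg fun P _ => norm_nonneg _
  have hsNxy : 0 ≤ ∑ i, (‖x i‖ + ‖y i‖) :=
    Finset.sum_nonneg fun P _ => add_nonneg (norm_nonneg _) (norm_nonneg _)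
  obtain ⟨η, hη0, hη_a, -, hη_c, hη_d, hη_e, hη_f⟩ : ∃ η : ℝ, 0 < η ∧
      η * (4 * Nxy ^ 2) ≤ 1 ∧ η < 1 ∧ η ≤ ε₀ ∧ η * (2 * Nx * R ^ 2) ≤ η₁ ∧ η * W ≤ ε₀ ∧
      η * (2 * S * Nc * R) ≤ ε := by
    have p2 : 0 < Nxy := by linarith
    have p3 : 0 < Nx := by linarith
    have p4 : 0 < R := by rw [hR]; positivity
    have hΦ1 : 0 ≤ Φ := by linarith
    have hcard : (0 : ℝ) ≤ Fintype.card (Fin L × Fin N) := Nat.cast_nonneg _
    have hW0 := mul_nonneg (mul_nonneg hΦ1 hd0) hcard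
    have p5 : 0 < W := by linarith
    have p6 : 0 < S := by linarith
    have p7 : 0 < Nc := by linarith
    exact loc_exists_small one_pos hε₀0 one_pos hη₁0 hε (by positivity) (by positivity) p5
      (by positivity)
  have hε4 : ε₀ ≤ ε / 4 := hε₀.le.trans (min_le_left _ _)
  have hεK : ε₀ * (6 * K ^ 2) ≤ ε ^ 2 :=
    (le_div_iff₀ (by positivity)).1 (hε₀.le.trans (min_le_right _ _))
  refine ⟨X.image (fun z => c₀ * z * c₀) ∪
    Finset.univ.image (fun P : Fin L × Fin N => c P.1 P.2 * c₀) ∪ Finset.univ.image y,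
    η, hη0, fun f q hq hcomm hqq hfq => ?_⟩
  simp only [Finset.mem_union, Finset.mem_image, Finset.mem_univ, true_and] at hcomm
  have hcX : ∀ z ∈ X, ∀ p, ‖q p * (c₀ * z * c₀) - c₀ * z * c₀ * q p‖ ≤ η := fun z hz p =>
    (hcomm _ (Or.inl (Or.inl ⟨z, hz, rfl⟩))).2 p
  have hcC : ∀ P : Fin L × Fin N, ‖f * (c P.1 P.2 * c₀) - c P.1 P.2 * c₀ * f‖ ≤ η := fun P =>
    (hcomm _ (Or.inl (Or.inr ⟨P, rfl⟩))).1
  have hcy : ∀ p i, ‖q p * y i - y i * q p‖ ≤ η := fun p i => (hcomm _ (Or.inr ⟨i, rfl⟩)).2 p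
  clear hcomm
  have hqs : ∀ p, IsSelfAdjoint (q p) := fun p => (loc_nonneg (hq p).1).isSelfAdjoint
  have hpiece := fun p => pi_piece hpi (η := η) (hqs p) (hq p).2.2 hc₀ x y hxy
    (by rw [← hNxy]; exact hη_a) hη0.le hbc.norm_c.le (hcy p)
  rw [← hNxy] at hpiece
  choose t ht1 ht2 using hpiece
  have htR : ∀ p, ‖t p‖ ≤ R := fun p => by
    have := ht2 p
    rw [hR]
    nlinarith [norm_nonneg (t p), sq_nonneg Nxy, sq_nonneg (4 * Nxy ^ 2)]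
  have hu2 : ∀ p, ‖c₀ * q p * t p‖ ^ 2 ≤ 2 := fun p => by
    rw [sq, ← CStarRing.norm_star_mul_self, ht1 p, CStarRing.norm_one]
    norm_num
  have hΦz : ∀ z ∈ X, ‖φ z‖ ≤ Φ := fun z hz => by
    linarith [Finset.single_le_sum (fun w _ => norm_nonneg (φ w)) hz (f := fun w => ‖φ w‖)]
  have hz : ∀ a ∈ D₁, ∀ P Q : Fin L × Fin N, star (c P.1 P.2) * a * c Q.1 Q.2 ∈ X := fun a ha P Q =>
    Finset.mem_union_left _ (Finset.mem_image.2
      ⟨(a, (P, Q)), Finset.mem_product.2 ⟨ha, Finset.mem_univ _⟩, rfl⟩)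
  have hmat := loc_matrix (Nx := 2 * Nx) (e := 1) (ε' := 0) φ q t
    (fun p => ⟨hqs p, (hq p).2.1⟩) hc₀ hbc.unit htR hqq hcX hexc'
    (fun p => by rw [ht1 p]; simp) hu2 hΦz hη₁0.le hη0.le (by simpa using hη₁0.le) (fun z hz => by
      linarith [Finset.single_le_sum (fun w _ => norm_nonneg (c₀ * w * c₀)) hz
          (f := fun w => ‖c₀ * w * c₀‖)]) (by linarith)
  have hΦ1 : 0 ≤ Φ := by linarith
  have hR0 : 0 ≤ R := by rw [hR]; positivity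
  have hS0 : 0 ≤ S := by linarith
  refine loc_finish (e := 1) c d q t φ θ D T D₁ (K := K) (S := S) (M := 2 * Nc) (η₁ := η₁) (Φ := Φ)
    (fun a ha => ⟨Finset.mem_union_left _ (Finset.mem_union_left _ ha),
      Finset.mem_union_left _ (Finset.mem_union_right _ (Finset.mem_image.2 ⟨a, ha, rfl⟩))⟩)
    (Finset.mem_union_right _ (Finset.mem_singleton_self 1)) (IsSelfAdjoint.one A)
    CStarRing.norm_one.le hb hbc.unit
    hη0.le hη_c hΦ1 hη₁0.le (by linarith) hR0 ?_ ?_ hε4 hεK (fun a ha => ?_) hε.le (fun P => ?_)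
    (by linarith) (by linarith) (fun p => (hq p).2.1) htR hu2
    (fun a ha P Q => hmat _ (hz a ha P Q) P.1 Q.1) (fun a ha P Q => hΦz _ (hz a ha P Q)) hdec
    (fun a _ => by simpa using hη0.le) (fun P => by simpa using hη0.le) hcC hfq
    (fun i hi P Q => horth i hi _ (Finset.mem_union_right _ (Finset.mem_image.2
      ⟨(i, (P, Q)), Finset.mem_product.2 ⟨hi, Finset.mem_univ _⟩, rfl⟩)))
  · have hSne : S ≠ 0 := by intro h; linarith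
    calc _ ≤ S * η₁ * S := by gcongr <;> linarith
      _ = ε₀ := by rw [hη₁]; field_simp
  · refine le_trans (mul_le_mul_of_nonneg_left ?_ hη0.le) hη_e
    linarith
  · linarith [Finset.single_le_sum (fun b _ => norm_nonneg b) ha (f := fun b : A => ‖b‖)]
  · linarith [Finset.single_le_sum (fun Q _ => norm_nonneg (c Q.1 Q.2 * c₀))
      (Finset.mem_univ P) (f := fun Q : Fin L × Fin N => ‖c Q.1 Q.2 * c₀‖)]

end

end Vale.P095.Infinite
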