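import Vale.Agent.P095.SI.Dicho
import Vale.Agent.P101.ZStab.Tree
import Vale.Agent.P101.Main

/-!
# P095: orthogonal almost central pieces without trace conditions

When `F(A)` has no characters its order zero maps give any number of orthogonal plateau pairs of norm
one in `F(A)`; their representatives give almost central pieces in `A`.
-/

open Filter Topology
open scoped BoundedContinuousFunction

namespace Vale.P095.Infinite

open Vale.P095.SI

noncomputable section

attribute [local instance] CStarAlgebra.spectralOrder CStarAlgebra.spectralOrderedRing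

/-- Orthogonal plateau pairs from the order zero relations. -/
theorem exists_orth_pairs {E : Type} [CStarAlgebra E] [Nontrivial E] {n : ℕ} {hn : 0 < n}
    {s : Fin n → E} {v : E} (h : P101.ZS.RWRel n hn s v) :
    ∃ b c : Fin n → E, (∀ i, IsPair (b i) (c i)) ∧
      ∀ i j, i ≠ j → b i * b j = 0 ∧ c i * c j = 0 := by
  set i₀ : Fin n := ⟨0, hn⟩
  obtain ⟨r, hr⟩ := h.pos
  have hs0 : star (s i₀) = s i₀ := by rw [hr, star_mul, star_star]
  have hgram : ∀ i, star (s i) * s i = s i₀ * s i₀ := fun i => (h.orth i i).trans (if_pos rfl)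
  have hne : s i₀ ≠ 0 := fun h0 => by
    have hz : ∀ i, s i = 0 := fun i => by
      rw [← CStarRing.star_mul_self_eq_zero_iff, hgram i, h0, mul_zero]
    have hv : v = 0 := by rw [← h.absorb, h0, zero_mul]
    have := h.defect
    simp [hv, hz] at this
  set c₀ : ℝ := ‖s i₀‖ * ‖s i₀‖ with hc₀
  have hc₀pos : 0 < c₀ := mul_pos (norm_pos_iff.2 hne) (norm_pos_iff.2 hne)
  have hn1 : ∀ i, ‖s i * star (s i)‖ = c₀ := fun i => by
    rw [CStarRing.norm_self_mul_star, ← CStarRing.norm_star_mul_self, hgram i, hc₀]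
    conv_lhs => arg 1; arg 1; rw [← hs0]
    exact CStarRing.norm_star_mul_self
  set a : Fin n → E := fun i => c₀⁻¹ • (s i * star (s i)) with ha
  have ha0 : ∀ i, 0 ≤ a i := fun i => smul_nonneg (by positivity) (mul_star_self_nonneg _)
  have ha1 : ∀ i, ‖a i‖ = 1 := fun i => by
    rw [ha, norm_smul, hn1, Real.norm_of_nonneg (by positivity), inv_mul_cancel₀ hc₀pos.ne']
  choose b c g hp hb hb' _ _ using fun i => Dicho.exists_pair (ha0 i) (ha1 i)
  have hbo : ∀ i j, i ≠ j → b i * b j = 0 := fun i j hij => by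
    have haa : a i * a j = 0 := by
      simp only [ha, smul_mul_smul_comm]
      rw [mul_assoc (s i), ← mul_assoc (star (s i)), h.orth i j, if_neg hij]
      simp
    rw [hb i, hb' j, mul_assoc, ← mul_assoc (a i), haa]
    simp
  refine ⟨b, c, hp, fun i j hij => ⟨hbo i j hij, ?_⟩⟩
  have hcs : c i * b i = c i := by
    have hbs := (Dicho.isPos_iff.1 (hp i).pos_b).isSelfAdjoint.star_eq
    have hcs := (Dicho.isPos_iff.1 (hp i).pos_c).isSelfAdjoint.star_eq
    calc c i * b i = star (b i * c i) := by rw [star_mul, hbs, hcs]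
      _ = c i := by rw [(hp i).unit, hcs]
  rw [← hcs, ← (hp j).unit, mul_assoc, ← mul_assoc (b i), hbo i j hij]
  simp

variable {A : Type} [CStarAlgebra A]

/-- Almost central orthogonal pieces with units. -/
theorem exists_pieces_pi [TopologicalSpace.SeparableSpace A] [Nontrivial A] {ω : Ultrafilter ℕ}
    (hω : (ω : Filter ℕ) ≤ cofinite) (hchar : P101.NoCharacters (P101.FOmega A ω)) (L : ℕ)
    (D : Finset A) {η : ℝ} (hη : 0 < η) :
    ∃ q b : Fin L → A, (∀ p, IsPos (q p) ∧ ‖q p‖ ≤ 1 ∧ 1 / 2 ≤ ‖q p‖ ∧ IsSelfAdjoint (b p) ∧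
        ‖b p‖ ≤ 2) ∧
      (∀ a ∈ D, ∀ p, ‖q p * a - a * q p‖ ≤ η ∧ ‖b p * a - a * b p‖ ≤ η) ∧
      (∀ p p', p ≠ p' → ‖q p * q p'‖ ≤ η ∧ ‖b p * b p'‖ ≤ η) ∧
      ∀ p, ‖b p * q p - q p‖ ≤ η := by
  classical
  have hone : ∀ x : A, ‖P101.constSeq ω x‖ = ‖x‖ := fun x =>
    (P101.norm_cls ω _).trans (tendsto_nhds_unique (P101.tendsto_limNorm ω _) (by simp))
  have : Nontrivial (P101.Central A ω) := ⟨⟨1, 0, fun e => by
    have h : ‖P101.constSeq ω (1 : A)‖ = 0 := by
      have h' : P101.cls ω (1 : ℕ →ᵇ A) = 0 := by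
        rw [map_one]
        exact congrArg Subtype.val e
      exact norm_eq_zero.2 h'
    rw [hone, CStarRing.norm_one] at h
    exact one_ne_zero h⟩⟩
  have hfull : P101.Full (P101.commSet (P101.FOmega A ω)) := P101.full_commSet ⟨fun χ => by
    have := congrArg (fun f : P101.FOmega A ω →⋆ₙₐ[ℂ] ℂ => f 1) (hchar χ.toNonUnitalStarAlgHom)
    exact one_ne_zero ((map_one χ).symm.trans this)⟩
  obtain ⟨s, v, hsv⟩ := P101.ZS.treeStmt _ (P101.copyProp_central ω hω) hfull (L + 1) (by omega)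
  obtain ⟨bb, cc, hp, horth⟩ := exists_orth_pairs hsv
  have hL : L ≤ 2 ^ (L + 1) := Nat.lt_two_pow_self.le.trans
    (Nat.pow_le_pow_right two_pos (Nat.le_succ L))
  let ι : Fin L → Fin (2 ^ (L + 1)) := Fin.castLE hL
  choose y hy using fun p => (hp (ι p)).pos_c
  choose z hz using fun p => (hp (ι p)).pos_b
  choose f hf using fun p => P101.cls_surjective ω (Subtype.val (y p))
  choose g hg using fun p => P101.cls_surjective ω (Subtype.val (z p))
  let Q : Fin L → (ℕ →ᵇ A) := fun p => star (f p) * f p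
  let B : Fin L → (ℕ →ᵇ A) := fun p => star (g p) * g p
  have hQ : ∀ p, P101.cls ω (Q p) = Subtype.val (cc (ι p)) := fun p => by
    simp only [Q, map_mul, ← P101.star_cls, hf, hy p]
    rfl
  have hB : ∀ p, P101.cls ω (B p) = Subtype.val (bb (ι p)) := fun p => by
    simp only [B, map_mul, ← P101.star_cls, hg, hz p]
    rfl
  have hlim : ∀ p, Tendsto (fun n => ‖Q p n‖) ω (𝓝 1) ∧ Tendsto (fun n => ‖B p n‖) ω (𝓝 1) :=
    fun p => by
    constructor
    · have h := P101.tendsto_limNorm ω (Q p)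
      rwa [← P101.norm_cls, hQ, show ‖(Subtype.val (cc (ι p)) : P101.Ultrapower A ω)‖ = 1 from
        (hp (ι p)).norm_c] at h
    · have h := P101.tendsto_limNorm ω (B p)
      rwa [← P101.norm_cls, hB, show ‖(Subtype.val (bb (ι p)) : P101.Ultrapower A ω)‖ = 1 from
        (hp (ι p)).norm_b] at h
  have hnull : ∀ F : ℕ →ᵇ A, P101.cls ω F = 0 → Tendsto (fun n => ‖F n‖) ω (𝓝 0) := fun F h => by
    rw [← map_zero (P101.cls (A := A) ω), P101.cls_eq_cls, sub_zero] at h
    exact P101.mem_nullSeq.1 h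
  have hcen : ∀ (F : ℕ →ᵇ A) (x : P101.FOmega A ω), P101.cls ω F = Subtype.val x → ∀ a : A,
      Tendsto (fun n => ‖F n * a - a * F n‖) ω (𝓝 0) := fun F x h a => by
    have h1 : Commute (P101.constSeq ω a) (P101.cls ω F) := by
      rw [h]
      exact (P101.mem_central ω).1 x.2 a
    simpa using P101.tendsto_of_commute_cls ω h1.symm
  have hev : ∀ᶠ n in (ω : Filter ℕ), (∀ p, 3 / 4 < ‖Q p n‖ ∧ ‖Q p n‖ < 5 / 4 ∧ ‖B p n‖ < 2) ∧
      (∀ a ∈ D, ∀ p, ‖Q p n * a - a * Q p n‖ < η ∧ ‖B p n * a - a * B p n‖ < η) ∧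
      (∀ p p', p ≠ p' → ‖Q p n * Q p' n‖ < η ∧ ‖B p n * B p' n‖ < η) ∧
      ∀ p, ‖B p n * Q p n - Q p n‖ < η := by
    refine (eventually_all.2 fun p => ?_).and ((eventually_all_finset D).2 (fun a _ =>
      eventually_all.2 fun p => ?_) |>.and ((eventually_all.2 fun p => eventually_all.2 fun p' =>
        ?_).and (eventually_all.2 fun p => ?_)))
    · exact ((hlim p).1.eventually (eventually_gt_nhds (by norm_num))).and
        (((hlim p).1.eventually (eventually_lt_nhds (by norm_num))).and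
          ((hlim p).2.eventually (eventually_lt_nhds (by norm_num))))
    · exact ((hcen _ _ (hQ p) a).eventually (eventually_lt_nhds hη)).and
        ((hcen _ _ (hB p) a).eventually (eventually_lt_nhds hη))
    · by_cases h : p = p'
      · exact Eventually.of_forall fun n h' => absurd h h'
      have hι : ι p ≠ ι p' := fun e => h (Fin.castLE_injective hL e)
      have h1 : P101.cls ω (Q p * Q p') = 0 := by
        rw [map_mul, hQ, hQ]
        exact congrArg Subtype.val (horth _ _ hι).2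
      have h2 : P101.cls ω (B p * B p') = 0 := by
        rw [map_mul, hB, hB]
        exact congrArg Subtype.val (horth _ _ hι).1
      filter_upwards [(hnull _ h1).eventually (eventually_lt_nhds hη),
        (hnull _ h2).eventually (eventually_lt_nhds hη)] with n e1 e2 _
      exact ⟨by simpa using e1, by simpa using e2⟩
    · have h1 : P101.cls ω (B p * Q p - Q p) = 0 := by
        rw [map_sub, map_mul, hB, hQ]
        exact sub_eq_zero.2 (congrArg Subtype.val (hp (ι p)).unit)
      simpa using (hnull _ h1).eventually (eventually_lt_nhds hη)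
  obtain ⟨n, h1, h2, h3, h4⟩ := hev.exists
  set μ : Fin L → ℝ := fun p => (max 1 ‖Q p n‖)⁻¹ with hμ
  have hμ0 : ∀ p, 0 ≤ μ p := fun p => by positivity
  have hμ1 : ∀ p, μ p ≤ 1 := fun p => inv_le_one_of_one_le₀ (le_max_left _ _)
  have hsm : ∀ p (x : A), ‖μ p • x‖ ≤ ‖x‖ := fun p x => by
    rw [norm_smul, Real.norm_of_nonneg (hμ0 p)]
    exact mul_le_of_le_one_left (norm_nonneg _) (hμ1 p)
  refine ⟨fun p => μ p • Q p n, fun p => B p n, fun p => ⟨?_, ?_, ?_, ?_, (h1 p).2.2.le⟩,
    fun a ha p => ⟨?_, (h2 a ha p).2.le⟩, fun p p' hpp => ⟨?_, (h3 p p' hpp).2.le⟩, fun p => ?_⟩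
  · exact Dicho.isPos_iff.2 (smul_nonneg (hμ0 p) (star_mul_self_nonneg (f p n)))
  · rw [norm_smul, Real.norm_of_nonneg (hμ0 p), hμ, inv_mul_le_iff₀ (by positivity), mul_one]
    exact le_max_right _ _
  · rw [norm_smul, Real.norm_of_nonneg (hμ0 p), hμ, ← div_eq_inv_mul, le_div_iff₀ (by positivity)]
    rcases le_total 1 ‖Q p n‖ with h | h
    · rw [max_eq_right h]; linarith [(h1 p).1]
    · rw [max_eq_left h]; linarith [(h1 p).1]
  · exact IsSelfAdjoint.star_mul_self (g p n)
  · rw [smul_mul_assoc, mul_smul_comm, ← smul_sub]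
    exact (hsm p _).trans (h2 a ha p).1.le
  · rw [smul_mul_assoc, mul_smul_comm]
    exact (hsm p _).trans ((hsm p' _).trans (h3 p p' hpp).1.le)
  · rw [mul_smul_comm, ← smul_sub]
    exact (hsm p _).trans (h4 p).le

end

end Vale.P095.Infinite
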