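import Vale.Agent.P095.SI.Equivariant
import Vale.Agent.P095.Infinite.Local
import Vale.Agent.P095.Infinite.Pieces

/-!
# P095: traceless algebras carry `Z(2,3)` in the fixed central sequences

An isometry with translates orthogonal off the subgroup of asymptotically fixing elements, times two
isometries with orthogonal ranges, averaged over Følner representatives of the cosets, gives two
fixed isometries with orthogonal ranges in the central sequence algebra.
-/

open Filter Topology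
open scoped BoundedContinuousFunction

namespace Vale.P095.Infinite

open Vale.P095.SI Vale.P095.Tracial

noncomputable section

variable {A : Type} [CStarAlgebra A]

theorem norm_le_two {u : A} (h : ‖star u * u - 1‖ ≤ 1) : ‖u‖ ≤ 2 := by
  have h1 : ‖(1 : A)‖ ≤ 1 := by
    rcases subsingleton_or_nontrivial A with hs | hs
    · simp [Subsingleton.elim (1 : A) 0]
    · simp
  have h2 := norm_le_insert' (star u * u) 1
  rw [CStarRing.norm_star_mul_self] at h2
  nlinarith [norm_nonneg u]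

theorem norm_conj_le {a b x : A} {r : ℝ} (ha : ‖a‖ ≤ 2) (hb : ‖b‖ ≤ 2) (hx : ‖x‖ ≤ r) :
    ‖star a * x * b‖ ≤ 4 * r := by
  have hr : 0 ≤ r := (norm_nonneg _).trans hx
  calc _ ≤ ‖star a‖ * ‖x‖ * ‖b‖ :=
        (norm_mul_le _ _).trans (mul_le_mul_of_nonneg_right (norm_mul_le _ _) (norm_nonneg _))
    _ ≤ 2 * r * 2 := by rw [norm_star]; gcongr
    _ = _ := by ring

/-- Averages of orthogonal families. -/
theorem avgSum_cross {ι : Type*} {F : Finset ι} (hF : F.Nonempty) (w w' : ι → A) {δ : ℝ}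
    (h : ∀ g ∈ F, ∀ k ∈ F, ‖star (w g) * w' k‖ ≤ δ) :
    ‖star (avgSum F w) * avgSum F w'‖ ≤ (F.card : ℝ) * δ := by
  have hn : (0 : ℝ) < F.card := by exact_mod_cast hF.card_pos
  have e : star (avgSum F w) * avgSum F w' =
      (F.card : ℝ)⁻¹ • ∑ g ∈ F, ∑ k ∈ F, star (w g) * w' k := by
    rw [avgSum, avgSum, star_smul, star_trivial, smul_mul_smul_comm, coef_mul_self, star_sum,
      Finset.sum_mul_sum]
  rw [e, norm_smul, norm_inv, Real.norm_of_nonneg hn.le, inv_mul_le_iff₀ hn]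
  refine (norm_sum_le _ _).trans ((Finset.sum_le_sum fun g hg =>
    (norm_sum_le _ _).trans (Finset.sum_le_sum (h g hg))).trans_eq ?_)
  simp only [Finset.sum_const, nsmul_eq_mul]

/-- Almost fixed almost central isometries with almost orthogonal ranges. -/
theorem approx_isometries [Nontrivial A] [IsSimpleRing A] [TopologicalSpace.SeparableSpace A]
    {G : Type} [Group G] [Countable G] (hA : HasCPAP A) (hpi : IsPurelyInfinite A)
    {ω : Ultrafilter ℕ} (hω : (ω : Filter ℕ) ≤ Filter.cofinite)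
    (hchar : P101.NoCharacters (P101.FOmega A ω)) (hG : IsFolner G) (α : G →* (A ≃⋆ₐ[ℂ] A))
    (D : Finset A) (S : Finset G) {ε : ℝ} (hε : 0 < ε) :
    ∃ v w : A, ‖v‖ ≤ 2 ∧ ‖w‖ ≤ 2 ∧ ‖star v * v - 1‖ ≤ ε ∧ ‖star w * w - 1‖ ≤ ε ∧
      ‖star v * w‖ ≤ ε ∧ (∀ a ∈ D, ‖v * a - a * v‖ ≤ ε ∧ ‖w * a - a * w‖ ≤ ε) ∧
      ∀ g : G, g ∈ S → ‖α g v - v‖ ≤ ε ∧ ‖α g w - w‖ ≤ ε := by
  classical
  obtain ⟨ε₀, hε₀, hε₀1, hε₀ε⟩ : ∃ e : ℝ, 0 < e ∧ e ≤ 1 ∧ e ≤ ε :=
    ⟨min ε 1, lt_min hε one_pos, min_le_right _ _, min_le_left _ _⟩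
  -- the subgroup of asymptotically fixing elements
  let N : Subgroup G :=
    { carrier := {g | AsympFix (α g)}
      one_mem' := fun t ht => ⟨∅, 1, one_pos, fun z _ _ => by simpa using ht.le⟩
      mul_mem' := fun {g h} hg hh t ht => by
        obtain ⟨D₁, η₁, hη₁, h₁⟩ := hg (t / 2) (half_pos ht)
        obtain ⟨D₂, η₂, hη₂, h₂⟩ := hh (t / 2) (half_pos ht)
        refine ⟨D₁ ∪ D₂, min η₁ η₂, lt_min hη₁ hη₂, fun z hz hza => ?_⟩
        have e1 := h₁ z hz fun a ha =>
          (hza a (Finset.mem_union_left D₂ ha)).trans (min_le_left _ _)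
        have e2 := h₂ z hz fun a ha =>
          (hza a (Finset.mem_union_right D₁ ha)).trans (min_le_right _ _)
        rw [map_mul, show (α g * α h) z - z = α g (α h z - z) + (α g z - z) by
          rw [map_sub, StarAlgEquiv.mul_apply]; abel]
        refine (norm_add_le _ _).trans ?_
        rw [SI.norm_aut]
        linarith
      inv_mem' := fun {g} hg t ht => by
        obtain ⟨D₁, η₁, hη₁, h₁⟩ := hg t ht
        refine ⟨D₁, η₁, hη₁, fun z hz hza => ?_⟩
        have e : α g (α g⁻¹ z) = z := by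
          rw [← StarAlgEquiv.mul_apply, ← map_mul, mul_inv_cancel, map_one]; rfl
        calc ‖α g⁻¹ z - z‖ = ‖α g (α g⁻¹ z - z)‖ := (SI.norm_aut _ _).symm
          _ = ‖α g z - z‖ := by rw [map_sub, e, norm_sub_rev]
          _ ≤ t := h₁ z hz hza }
  obtain ⟨F, hFne, hFN, hσ⟩ := exists_folner_reps hG N S (ε := ε₀ ^ 2 / 64) (by positivity)
  choose F₀ σ hF₀ hcard hinj hmem using hσ
  set n : ℝ := (F.card : ℝ)
  have hn : (1 : ℝ) ≤ n := Nat.one_le_cast.2 hFne.card_pos
  set δ : ℝ := ε₀ ^ 2 / (64 * n) with hδdef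
  have hδ : 0 < δ := by positivity
  have hnδ : n * δ = ε₀ ^ 2 / 64 := by rw [hδdef]; field_simp
  have hδ1 : δ ≤ n * δ := le_mul_of_one_le_left hδ.le hn
  have hsq : ε₀ ^ 2 ≤ ε₀ := by nlinarith
  -- finitely many asymptotically fixing elements
  let M : Finset G := S.attach.biUnion fun k => (F₀ k k.2).image fun g => (σ k k.2 g)⁻¹ * (k * g)
  obtain ⟨DN, ηN, hηN, hfixd⟩ := exists_fix_data α M (fun m hm => by
    obtain ⟨k, -, hm⟩ := Finset.mem_biUnion.1 hm
    obtain ⟨g, hg, rfl⟩ := Finset.mem_image.1 hm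
    exact (hmem k k.2 g hg).2) hδ
  set δ' : ℝ := min δ ηN / 16 with hδ'def
  have hδ' : 0 < δ' := div_pos (lt_min hδ hηN) (by norm_num)
  have hδ'δ : 16 * δ' ≤ δ := by rw [hδ'def]; linarith [min_le_left δ ηN]
  have hδ'N : 16 * δ' ≤ ηN := by rw [hδ'def]; linarith [min_le_right δ ηN]
  have hδ'1 : δ' ≤ 1 := by linarith
  -- the isometry with orthogonal translates
  let θ : {g : G // g ∉ N} → A ≃⋆ₐ[ℂ] A := fun g => α g
  have hθ : ∀ i, IsOrth (θ i) := fun g => (isOrth_or_asympFix _).resolve_right g.2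
  let T : Finset {g : G // g ∉ N} :=
    ((F ×ˢ F).image fun p => p.1⁻¹ * p.2).subtype fun g => g ∉ N
  let Ds : Finset A := DN ∪ F.biUnion fun g => D.image (α g⁻¹)
  obtain ⟨L₁, D₁, η₁, hη₁, hloc₁⟩ := si_local_pi hA hpi θ hθ Ds T hδ'
  obtain ⟨q, b, hq, hqc, hqo, hbq⟩ := exists_pieces_pi hω hchar L₁ D₁ hη₁
  obtain ⟨s, hss, hsD, -, hsT⟩ := hloc₁ 1 q (fun p => ⟨(hq p).1, (hq p).2.1, (hq p).2.2.1⟩)
    (fun a ha => ⟨by simpa using hη₁.le, fun p => (hqc a ha p).1⟩)
    (fun p p' h => (hqo p p' h).1) (fun p => by simpa using hη₁.le)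
  -- two isometries with orthogonal ranges
  obtain ⟨L, D₂, η₂, hη₂, hloc⟩ := si_local_pi hA hpi θ hθ Ds ∅ hδ'
  set K : ℝ := 4 * ((L : ℝ) + 1) ^ 2 with hK
  have hK4 : 4 ≤ K := by rw [hK]; nlinarith [Nat.cast_nonneg (α := ℝ) L]
  have hKL : 4 * (L : ℝ) ≤ K ∧ (L : ℝ) * L ≤ K ∧ (L : ℝ) ≤ K := by
    refine ⟨?_, ?_, ?_⟩ <;> rw [hK] <;> nlinarith [Nat.cast_nonneg (α := ℝ) L]
  obtain ⟨η, hη, hηη₂, hηδ⟩ : ∃ η : ℝ, 0 < η ∧ η * K ≤ η₂ ∧ η * K ≤ δ' :=
    ⟨min η₂ δ' / K, div_pos (lt_min hη₂ hδ') (by linarith),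
      (div_mul_cancel₀ _ (by linarith : K ≠ 0)).le.trans (min_le_left _ _),
      (div_mul_cancel₀ _ (by linarith : K ≠ 0)).le.trans (min_le_right _ _)⟩
  obtain ⟨q', b', hq', hqc', hqo', hbq'⟩ := exists_pieces_pi hω hchar (L + L) D₂ hη
  let e₁ : Fin L → Fin (L + L) := Fin.castAdd L
  let e₂ : Fin L → Fin (L + L) := Fin.natAdd L
  have he : ∀ p p', e₁ p ≠ e₂ p' := fun p p' h => by
    have h1 := congrArg Fin.val h
    have h2 := p.2
    simp only [e₁, e₂, Fin.val_castAdd, Fin.val_natAdd] at h1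
    omega
  have hgroup : ∀ e : Fin L → Fin (L + L), Function.Injective e → ∃ t : A,
      ‖star t * t - 1‖ ≤ δ' ∧ (∀ a ∈ Ds, ‖t * a - a * t‖ ≤ δ') ∧
      ‖(∑ p, b' (e p)) * t - t‖ ≤ δ' := fun e hinj => by
    obtain ⟨t, h1, h2, h3, -⟩ := hloc (∑ p, b' (e p)) (fun p => q' (e p))
      (fun p => ⟨(hq' _).1, (hq' _).2.1, (hq' _).2.2.1⟩)
      (fun a ha => ⟨by
        rw [Finset.sum_mul, Finset.mul_sum, ← Finset.sum_sub_distrib]
        refine (norm_sum_le _ _).trans ((Finset.sum_le_sum fun p _ => (hqc' a ha (e p)).2).trans ?_)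
        rw [Finset.sum_const, Finset.card_univ, Fintype.card_fin, nsmul_eq_mul, mul_comm]
        exact (mul_le_mul_of_nonneg_left hKL.2.2 hη.le).trans hηη₂,
        fun p => (hqc' a ha (e p)).1.trans (le_trans (le_mul_of_one_le_right hη.le
          (by linarith)) hηη₂)⟩)
      (fun p p' h => (hqo' _ _ fun h' => h (hinj h')).1.trans (le_trans (le_mul_of_one_le_right
        hη.le (by linarith)) hηη₂))
      (fun p => by
        have e1 : (∑ r, b' (e r)) * q' (e p) - q' (e p) = (b' (e p) * q' (e p) - q' (e p)) +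
            ∑ r ∈ Finset.univ.erase p, (b' (e r) * b' (e p) * q' (e p) -
              b' (e r) * (b' (e p) * q' (e p) - q' (e p))) := by
          rw [Finset.sum_mul, ← Finset.add_sum_erase _ _ (Finset.mem_univ p)]
          simp only [mul_sub, ← mul_assoc, sub_sub_cancel]
          abel
        rw [e1]
        refine (norm_add_le _ _).trans (le_trans (add_le_add (hbq' _) ((norm_sum_le _ _).trans
          ((Finset.sum_le_sum (g := fun _ => η * 3) fun r hr => ?_).trans_eq
            (by rw [Finset.sum_const, nsmul_eq_mul])))) ?_)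
        · refine (norm_sub_le _ _).trans ?_
          have h1 := (norm_mul_le (b' (e r) * b' (e p)) (q' (e p))).trans
            (mul_le_mul (hqo' _ _ fun h => Finset.ne_of_mem_erase hr (hinj h)).2 (hq' (e p)).2.1
              (norm_nonneg _) hη.le)
          have h2 := (norm_mul_le (b' (e r)) (b' (e p) * q' (e p) - q' (e p))).trans
            (mul_le_mul (hq' (e r)).2.2.2.2 (hbq' (e p)) (norm_nonneg _) two_pos.le)
          linarith
        · have hc : ((Finset.univ.erase p).card : ℝ) ≤ L := by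
            exact_mod_cast (Finset.card_le_card (Finset.erase_subset p _)).trans_eq (by simp)
          nlinarith [mul_le_mul_of_nonneg_right hc hη.le, hKL.1, mul_le_mul_of_nonneg_left hK4 hη.le])
    exact ⟨t, h1, h2, h3⟩
  obtain ⟨t₁, ht₁, htD₁, htf₁⟩ := hgroup e₁ (Fin.castAdd_injective L L)
  obtain ⟨t₂, ht₂, htD₂, htf₂⟩ := hgroup e₂ fun p p' h =>
    Fin.ext (by simpa [e₂] using congrArg Fin.val h)
  have hs2 : ‖s‖ ≤ 2 := norm_le_two (hss.trans hδ'1)
  have ht₁2 : ‖t₁‖ ≤ 2 := norm_le_two (ht₁.trans hδ'1)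
  have ht₂2 : ‖t₂‖ ≤ 2 := norm_le_two (ht₂.trans hδ'1)
  have ht12 : ‖star t₁ * t₂‖ ≤ 9 * δ' := by
    set f₁ : A := ∑ p, b' (e₁ p)
    set f₂ : A := ∑ p, b' (e₂ p)
    have hf₁ : IsSelfAdjoint f₁ := isSelfAdjoint_sum _ fun p _ => (hq' _).2.2.2.1
    have hff : ‖f₁ * f₂‖ ≤ δ' := by
      rw [Finset.sum_mul_sum]
      refine (norm_sum_le _ _).trans ((Finset.sum_le_sum fun p _ => (norm_sum_le _ _).trans
        (Finset.sum_le_sum fun p' _ => (hqo' _ _ (he p p')).2)).trans ?_)
      simp only [Finset.sum_const, Finset.card_univ, Fintype.card_fin, nsmul_eq_mul]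
      nlinarith [mul_le_mul_of_nonneg_left hKL.2.1 hη.le]
    have e : star t₁ * t₂ = star (t₁ - f₁ * t₁) * t₂ + star (f₁ * t₁) * (t₂ - f₂ * t₂) +
        star t₁ * (f₁ * f₂) * t₂ := by
      simp only [star_sub, star_mul, hf₁.star_eq]
      noncomm_ring
    rw [e]
    rw [norm_sub_rev] at htf₁ htf₂
    refine (norm_add₃_le).trans ?_
    have h1 : ‖star (t₁ - f₁ * t₁) * t₂‖ ≤ δ' * 2 := (norm_mul_le _ _).trans
      (mul_le_mul ((norm_star _).trans_le htf₁) ht₂2 (norm_nonneg _) hδ'.le)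
    have h2 : ‖star (f₁ * t₁) * (t₂ - f₂ * t₂)‖ ≤ 3 * δ' := (norm_mul_le _ _).trans
      (mul_le_mul ((norm_star _).trans_le
        (((norm_le_insert t₁ (f₁ * t₁)).trans (add_le_add ht₁2 htf₁)).trans (by linarith)))
        htf₂ (norm_nonneg _) (by norm_num))
    have h3 := norm_conj_le ht₁2 ht₂2 hff
    linarith
  -- the products
  have hprod : ∀ t t' : A, ‖t‖ ≤ 2 → ‖t'‖ ≤ 2 →
      ‖star (s * t) * (s * t') - star t * t'‖ ≤ 4 * δ' := fun t t' ht ht' => by
    rw [show star (s * t) * (s * t') - star t * t' = star t * (star s * s - 1) * t' by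
      rw [star_mul]; noncomm_ring]
    exact norm_conj_le ht ht' hss
  have hiso : ∀ t : A, ‖star t * t - 1‖ ≤ δ' → ‖star (s * t) * (s * t) - 1‖ ≤ 5 * δ' := fun t ht => by
    have h2 := norm_le_two (ht.trans hδ'1)
    refine (norm_sub_le_norm_sub_add_norm_sub _ (star t * t) _).trans ?_
    linarith [hprod t t h2 h2]
  have hcom : ∀ t : A, ‖t‖ ≤ 2 → (∀ a ∈ Ds, ‖t * a - a * t‖ ≤ δ') → ∀ a ∈ Ds,
      ‖s * t * a - a * (s * t)‖ ≤ 4 * δ' := fun t ht htc a ha => by
    rw [show s * t * a - a * (s * t) = s * (t * a - a * t) + (s * a - a * s) * t by noncomm_ring]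
    refine (norm_add_le _ _).trans ?_
    linarith [(norm_mul_le s (t * a - a * t)).trans
        (mul_le_mul hs2 (htc a ha) (norm_nonneg _) two_pos.le),
      (norm_mul_le (s * a - a * s) t).trans (mul_le_mul (hsD a ha) ht (norm_nonneg _) hδ'.le)]
  -- orthogonality of all translates
  have horth : ∀ t t' : A, ‖t‖ ≤ 2 → ‖t'‖ ≤ 2 → ∀ g ∈ F, ∀ h ∈ F, g ≠ h →
      ‖star (α g (s * t)) * α h (s * t')‖ ≤ δ := fun t t' ht ht' g hg h hh hne => by
    have hN : g⁻¹ * h ∉ N := fun hm => hne (hFN g hg h hh hm)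
    have e1 : star (α g (s * t)) * α h (s * t') =
        α g (star t * (star s * α (g⁻¹ * h) s) * α (g⁻¹ * h) t') := by
      simp only [map_mul, map_star, star_mul, ← StarAlgEquiv.mul_apply, mul_assoc]
      simp only [← map_mul, mul_inv_cancel_left]
    rw [e1, SI.norm_aut]
    refine (norm_conj_le ht ((SI.norm_aut _ _).trans_le ht') (hsT ⟨_, hN⟩ (Finset.mem_subtype.2
      (Finset.mem_image.2 ⟨(g, h), Finset.mem_product.2 ⟨hg, hh⟩, rfl⟩)))).trans ?_
    linarith
  -- one average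
  have hone : ∀ t : A, ‖star t * t - 1‖ ≤ δ' → (∀ a ∈ Ds, ‖t * a - a * t‖ ≤ δ') →
      ‖avgSum F (fun g => α g (s * t))‖ ≤ 2 ∧
      ‖star (avgSum F fun g => α g (s * t)) * avgSum F (fun g => α g (s * t)) - 1‖ ≤ ε ∧
      (∀ a ∈ D, ‖avgSum F (fun g => α g (s * t)) * a - a * avgSum F (fun g => α g (s * t))‖ ≤ ε) ∧
      ∀ k, k ∈ S → ‖α k (avgSum F fun g => α g (s * t)) - avgSum F (fun g => α g (s * t))‖ ≤ ε := by
    intro t ht htc
    have ht2 := norm_le_two (ht.trans hδ'1)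
    have hu := hiso t ht
    have hu2 : ‖s * t‖ ≤ 2 := norm_le_two (by linarith)
    have hwd : ∀ g ∈ F, ‖star (α g (s * t)) * α g (s * t) - 1‖ ≤ 5 * δ' := fun g _ => by
      rw [← map_star, ← map_mul, ← map_one (α g), ← map_sub, SI.norm_aut]
      exact hu
    have hwo := horth t t ht2 ht2
    have hgr := avgSum_gram hFne (fun g => α g (s * t)) 1 hδ.le hwd hwo
    have hgr' : ‖star (avgSum F fun g => α g (s * t)) * avgSum F (fun g => α g (s * t)) - 1‖
        ≤ ε₀ := hgr.trans (by linarith)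
    refine ⟨norm_le_two (hgr'.trans hε₀1), hgr'.trans hε₀ε, fun a ha => ?_, fun k hk => ?_⟩
    · refine (avgSum_commute hFne _ a hδ.le fun g hg => ?_).trans (by linarith)
      have ea : α g (α g⁻¹ a) = a := by
        rw [← StarAlgEquiv.mul_apply, ← map_mul, mul_inv_cancel, map_one]; rfl
      have e2 : α g (s * t) * a - a * α g (s * t) =
          α g (s * t * α g⁻¹ a - α g⁻¹ a * (s * t)) := by
        simp only [map_sub, map_mul, ea]
      rw [e2, SI.norm_aut]
      exact (hcom t ht2 htc _ (Finset.mem_union_right DN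
        (Finset.mem_biUnion.2 ⟨g, hg, Finset.mem_image_of_mem _ ha⟩))).trans (by linarith)
    · refine (avgSum_invariant hFne (hF₀ k hk) (σ k hk) (hinj k hk)
        (fun g hg => (hmem k hk g hg).1) (fun g => α g (s * t)) (α k) hδ.le (t := ε₀ / 4)
        (by linarith) ?_ (fun g hg => ?_) hwo ?_).trans (by linarith)
      · intro g hg
        have e2 : α k (α g (s * t)) - α (σ k hk g) (s * t) =
            α (σ k hk g) (α ((σ k hk g)⁻¹ * (k * g)) (s * t) - s * t) := by
          rw [← StarAlgEquiv.mul_apply, ← map_mul, map_sub, ← StarAlgEquiv.mul_apply, ← map_mul,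
            mul_inv_cancel_left]
        rw [e2, SI.norm_aut]
        exact hfixd _ (Finset.mem_biUnion.2 ⟨⟨k, hk⟩, Finset.mem_attach _ _,
          Finset.mem_image.2 ⟨g, hg, rfl⟩⟩) _ hu2 fun a ha =>
            (hcom t ht2 htc a (Finset.mem_union_left _ ha)).trans (by linarith)
      · linarith [norm_le_insert' (star (α g (s * t)) * α g (s * t)) 1, hwd g hg,
          CStarRing.norm_one (E := A)]
      · have h2n : 0 ≤ 2 + n * δ := by linarith
        have hc2 : 0 ≤ ε₀ ^ 2 / 64 * n := mul_nonneg (by linarith [sq_nonneg ε₀]) (by linarith)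
        refine (mul_le_mul_of_nonneg_right (hcard k hk) h2n).trans ?_
        have h4 : 2 + n * δ ≤ 4 := by linarith
        exact (mul_le_mul_of_nonneg_left h4 hc2).trans_eq (by ring)
  obtain ⟨a1, a2, a3, a4⟩ := hone t₁ ht₁ htD₁
  obtain ⟨b1, b2, b3, b4⟩ := hone t₂ ht₂ htD₂
  refine ⟨_, _, a1, b1, a2, b2, ?_, fun a ha => ⟨a3 a ha, b3 a ha⟩,
    fun g hg => ⟨a4 g hg, b4 g hg⟩⟩
  refine (avgSum_cross hFne _ _ (δ := δ) fun g hg h hh => ?_).trans (by linarith)
  rcases eq_or_ne g h with rfl | hne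
  · rw [← map_star, ← map_mul, SI.norm_aut]
    linarith [norm_le_insert' (star (s * t₁) * (s * t₂)) (star t₁ * t₂), hprod t₁ t₂ ht₁2 ht₂2]
  · exact horth t₁ t₂ ht₁2 ht₂2 g hg h hh hne

/-- `Z(2,3)` in the fixed central sequences. -/
theorem fixed_dimDrop_of_pi [Nontrivial A] [IsSimpleRing A] [TopologicalSpace.SeparableSpace A]
    {G : Type} [Group G] [Countable G] {ω : Ultrafilter ℕ}
    (hω : (ω : Filter ℕ) ≤ Filter.cofinite) (hA : HasCPAP A) (hpi : IsPurelyInfinite A)
    (hchar : P101.NoCharacters (P101.FOmega A ω)) (hG : IsFolner G) (α : G →* (A ≃⋆ₐ[ℂ] A)) :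
    Vale.P095.HasFixedDimDropHom ω (fun g a => α g a) := by
  classical
  obtain ⟨e, he⟩ := exists_surjective_nat G
  obtain ⟨a, ha⟩ := TopologicalSpace.exists_dense_seq A
  choose x v hx hv hxx hvv hxv hcen hinv using fun n : ℕ =>
    approx_isometries hA hpi hω hchar hG α ((Finset.range (n + 1)).image a)
      ((Finset.range (n + 1)).image e) (ε := 1 / ((n : ℝ) + 1)) (by positivity)
  let X : ℕ →ᵇ A := BoundedContinuousFunction.ofNormedAddCommGroup x
    continuous_of_discreteTopology 2 hx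
  let V : ℕ →ᵇ A := BoundedContinuousFunction.ofNormedAddCommGroup v
    continuous_of_discreteTopology 2 hv
  have hone : Tendsto (fun n : ℕ => 1 / ((n : ℝ) + 1)) ω (𝓝 0) :=
    (tendsto_one_div_add_atTop_nhds_zero_nat (𝕜 := ℝ)).mono_left (Nat.cofinite_eq_atTop ▸ hω)
  have hev : ∀ j, ∀ᶠ n in (ω : Filter ℕ), j ∈ Finset.range (n + 1) := fun j => by
    refine hω ?_
    rw [Nat.cofinite_eq_atTop]
    exact (eventually_ge_atTop j).mono fun n hn => Finset.mem_range.2 (by omega)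
  have hlim : ∀ (f : ℕ → ℝ) (j : ℕ), (∀ n, 0 ≤ f n) →
      (∀ n, j ∈ Finset.range (n + 1) → f n ≤ 1 / ((n : ℝ) + 1)) → Tendsto f ω (𝓝 0) :=
    fun f j h0 h => squeeze_zero' (Eventually.of_forall h0) ((hev j).mono h) hone
  have hcent : ∀ Z : ℕ →ᵇ A, (∀ j n, j ∈ Finset.range (n + 1) →
      ‖Z n * a j - a j * Z n‖ ≤ 1 / ((n : ℝ) + 1)) → P101.cls ω Z ∈ P101.Central A ω := by
    intro Z hZ
    rw [P101.mem_central]
    intro b
    have hk : Continuous fun b : A => P101.constSeq ω b :=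
      (AddMonoidHomClass.continuous_of_bound (P101.cls ω).toLinearMap 1 fun g => by
        rw [one_mul]
        exact P101.quot_norm_mk_le (P101.NullSeq A ω) g).comp
        (Isometry.continuous (Isometry.of_dist_eq fun p q => by
          simp [dist_eq_norm, BoundedContinuousFunction.norm_eq_iSup_norm]))
    refine (DenseRange.induction_on ha (p := fun b => Commute (P101.constSeq ω b) (P101.cls ω Z)) b
      (isClosed_eq (hk.mul continuous_const) (continuous_const.mul hk)) fun j => ?_)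
    exact (P101.commute_cls_of_tendsto ω (by
      simpa using hlim _ j (fun n => norm_nonneg _) (fun n hn => hZ j n hn))).symm
  have hfix : ∀ Z : ℕ →ᵇ A, (∀ j n, j ∈ Finset.range (n + 1) →
      ‖α (e j) (Z n) - Z n‖ ≤ 1 / ((n : ℝ) + 1)) →
      ∀ g, Vale.P095.actU ω α g (P101.cls ω Z) = P101.cls ω Z := by
    intro Z hZ g
    obtain ⟨j, rfl⟩ := he g
    rw [Vale.P095.actU_cls, P101.cls_eq_cls, P101.mem_nullSeq]
    exact hlim _ j (fun n => norm_nonneg _) fun n hn => hZ j n hn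
  let X' : Vale.P095.Fixed ω α := ⟨P101.cls ω X,
    hcent X fun j n hn => (hcen n _ (Finset.mem_image_of_mem a hn)).1,
    hfix X fun j n hn => (hinv n _ (Finset.mem_image_of_mem e hn)).1⟩
  let V' : Vale.P095.Fixed ω α := ⟨P101.cls ω V,
    hcent V fun j n hn => (hcen n _ (Finset.mem_image_of_mem a hn)).2,
    hfix V fun j n hn => (hinv n _ (Finset.mem_image_of_mem e hn)).2⟩
  have hXX : star X' * X' = 1 := Subtype.ext (by
    show star (P101.cls ω X) * P101.cls ω X = 1
    simp only [P101.star_cls, ← map_mul, ← map_one (P101.cls (A := A) ω)]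
    rw [P101.cls_eq_cls, P101.mem_nullSeq]
    exact hlim _ 0 (fun n => norm_nonneg _) fun n _ => by simpa [X] using hxx n)
  have hVV : star V' * V' = 1 := Subtype.ext (by
    show star (P101.cls ω V) * P101.cls ω V = 1
    simp only [P101.star_cls, ← map_mul, ← map_one (P101.cls (A := A) ω)]
    rw [P101.cls_eq_cls, P101.mem_nullSeq]
    exact hlim _ 0 (fun n => norm_nonneg _) fun n _ => by simpa [V] using hvv n)
  have hXV : star X' * V' = 0 := Subtype.ext (by
    show star (P101.cls ω X) * P101.cls ω V = 0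
    simp only [P101.star_cls, ← map_mul, ← map_zero (P101.cls (A := A) ω)]
    rw [P101.cls_eq_cls, P101.mem_nullSeq]
    exact hlim _ 0 (fun n => norm_nonneg _) fun n _ => by simpa [X, V] using hxv n)
  have hVX : star V' * X' = 0 := by rw [← star_star X', ← star_mul, hXV, star_zero]
  have a1 : ∀ z, star X' * (X' * z) = z := fun z => by rw [← mul_assoc, hXX, one_mul]
  have a2 : ∀ z, star V' * (V' * z) = z := fun z => by rw [← mul_assoc, hVV, one_mul]
  have a3 : ∀ z, star X' * (V' * z) = 0 := fun z => by rw [← mul_assoc, hXV, zero_mul]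
  have a4 : ∀ z, star V' * (X' * z) = 0 := fun z => by rw [← mul_assoc, hVX, zero_mul]
  obtain ⟨φ⟩ := P101.DD.exists_dimDrop_hom (X' * star V')
    (X' * (1 - (V' * star V' + X' * star X')))
    (by simp only [mul_assoc, a4, mul_zero])
    (by
      simp only [star_mul, star_sub, star_add, star_one, star_star, mul_sub, sub_mul, mul_add,
        add_mul, mul_one, one_mul, mul_assoc, a1, a2, a3, a4, mul_zero, hXX]
      abel)
    (by
      simp only [star_mul, star_star, mul_sub, mul_add, mul_one, mul_assoc, a1, a2, a3, a4,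
        mul_zero, hXX])
  let Z : StarSubalgebra ℂ (P101.Central A ω) :=
    (Vale.P095.Fixed ω α).comap (P101.Central A ω).subtype
  have hZ : IsClosed (Z : Set (P101.Central A ω)) :=
    (inferInstance : IsClosed (Vale.P095.Fixed ω α : Set (P101.Ultrapower A ω))).preimage
      continuous_subtype_val
  refine ⟨Z, hZ, fun y hy g f hf => ?_,
    ⟨((Vale.P095.fixIncl ω α).comp φ).codRestrict Z fun d => (φ d).2⟩⟩
  have h := (show (Subtype.val y : P101.Ultrapower A ω) ∈ Vale.P095.Fixed ω α from hy).2 g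
  have hf' : P101.cls ω f = (Subtype.val y : P101.Ultrapower A ω) := hf
  rw [← hf', Vale.P095.actU_cls, P101.cls_eq_cls, P101.mem_nullSeq] at h
  exact h

/-- The traceless case from the modules of lossy comparison. -/
theorem fixed_dimDrop_of_noTrace (hM : Lossy.MatStmt) (hU : Lossy.UpperStmt) (hL : Lossy.LowerStmt)
    (A : Type) [CStarAlgebra A] [Nontrivial A] [IsSimpleRing A]
    [TopologicalSpace.SeparableSpace A] (hA : HasCPAP A) (hτ : IsEmpty (TracialState A))
    (G : Type) [Group G] [Countable G] (hG : IsFolner G) (α : G →* (A ≃⋆ₐ[ℂ] A))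
    (ω : Ultrafilter ℕ) (hω : (ω : Filter ℕ) ≤ Filter.cofinite)
    (hchar : P101.NoCharacters (P101.FOmega A ω)) :
    Vale.P095.HasFixedDimDropHom ω (fun g a => α g a) :=
  fixed_dimDrop_of_pi hω hA (isPurelyInfinite hM hU hL hω hA hτ hchar) hchar hG α

end

end Vale.P095.Infinite
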